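import Mathlib
import Vale.Agent.P342.Defs
import Vale.Agent.Lib.PCP.PT.Fin
import Vale.Agent.Lib.PCP.PT.Gadget

/-!
P342: the graph of a product of games as an explicit finite graph, given by a list of vertices
(with repetitions) and a Boolean adjacency test; polynomial time; colourings.
-/

namespace Vale.Agent.P342.Red

open Vale.Agent.Lib.PCP Vale.Agent.Lib.PolyTime Vale.Agent.P342

/-! ### Tuples of elements of a list -/

/-- all `l`-tuples of elements of a list -/
def tuples {α : Type} (G : List α) : (l : ℕ) → List (Fin l → α)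
  | 0 => [fun i => i.elim0]
  | l + 1 => (tuples G l).flatMap fun e => G.map fun c => Fin.cons c e

theorem mem_tuples {α : Type} {G : List α} {l : ℕ} {e : Fin l → α} :
    e ∈ tuples G l ↔ ∀ b, e b ∈ G := by
  induction l with
  | zero =>
    simp only [tuples, List.mem_singleton]
    exact ⟨fun _ b => b.elim0, fun _ => funext fun b => b.elim0⟩
  | succ l ih =>
    simp only [tuples, List.mem_flatMap, List.mem_map]
    constructor
    · rintro ⟨e', he', c, hc, rfl⟩ b
      refine Fin.cases ?_ (fun i => ?_) b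
      · simpa using hc
      · simpa using ih.1 he' i
    · intro h
      exact ⟨Fin.tail e, ih.2 fun b => h b.succ, e 0, h 0, Fin.cons_self_tail e⟩

section PT

variable {A : Set Word} {γ : Type*} [Enc γ]

theorem PT_cons {α : Type} [Enc α] {l : ℕ} {c : γ → α} {e : γ → Fin l → α} (hc : PT A c)
    (he : PT A e) : PT A (fun a => (Fin.cons (c a) (e a) : Fin (l + 1) → α)) := by
  refine PT.funMk fun s => ?_
  refine Fin.cases ?_ (fun i => ?_) s
  · simpa using hc
  · simpa using PT.funAt he i

theorem PT_tuples {α : Type} [Enc α] {G : γ → List α} (hG : PT A G) (l : ℕ) :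
    PT A (fun a => tuples (G a) l) := by
  induction l with
  | zero => exact PT.const _
  | succ l ih =>
    unfold tuples
    refine PT.flatMap (f := fun (a : γ) (e : Fin l → α) => (G a).map fun c =>
      (Fin.cons c e : Fin (l + 1) → α)) ih ?_
    refine PT.map (l := fun p : γ × (Fin l → α) => G p.1)
      (f := fun (p : γ × (Fin l → α)) (c : α) => (Fin.cons c p.2 : Fin (l + 1) → α))
      (hG.comp PT.fst') ?_
    exact PT_cons PT.snd' PT.fst'.snd

end PT

/-! ### The graph -/

variable {l r : ℕ}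

/-- the vertices, with repetitions -/
noncomputable def vlist (l : ℕ) {r : ℕ} (G : PG ℕ ℕ (Fin r) (Fin r)) : List (Vx l r) :=
  (tuples G l).flatMap fun e => (Finset.univ.toList : List (Finset (Fin l))).flatMap fun U =>
    (Finset.univ.toList : List ((Fin l → Fin r) → Fin 3)).map fun φ => (vert e U, φ)

theorem mem_vlist {G : PG ℕ ℕ (Fin r) (Fin r)} {v : Vx l r} :
    v ∈ vlist l G ↔ ∃ e : Fin l → Ed r, (∀ b, e b ∈ G) ∧ ∃ U, v.1 = vert e U := by
  unfold vlist
  simp only [List.mem_flatMap, List.mem_map, mem_tuples, Finset.mem_toList, Finset.mem_univ,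
    true_and]
  constructor
  · rintro ⟨e, he, U, φ, rfl⟩
    exact ⟨e, he, U, rfl⟩
  · rintro ⟨e, he, U, h⟩
    exact ⟨e, he, U, v.2, Prod.ext h.symm rfl⟩

/-- the part of the adjacency test on finite data -/
def chk (U U' : Finset (Fin l)) (p : Fin l → Fin r → Fin r) (φ φ' : (Fin l → Fin r) → Fin 3) :
    Bool :=
  decide (∀ n : Fin l → Fin r, φ (fun b => if b ∉ U then p b (n b) else n b) ≠
    φ' (fun b => if b ∉ U' then p b (n b) else n b))

theorem chk_iff {U U' : Finset (Fin l)} {e : Fin l → Ed r} {φ φ' : (Fin l → Fin r) → Fin 3} :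
    chk U U' (fun b => (e b).2.2) φ φ' = true ↔
      ∀ n : Fin l → Fin r, φ (proj e Finset.univ U n) ≠ φ' (proj e Finset.univ U' n) := by
  unfold chk proj
  simp only [Finset.mem_univ, true_and, decide_eq_true_eq]

/-- the adjacency test -/
noncomputable def adjB (G : PG ℕ ℕ (Fin r) (Fin r)) (v v' : Vx l r) : Bool :=
  (tuples G l).any fun e =>
    ((Finset.univ.toList : List (Finset (Fin l) × Finset (Fin l))).map fun UU =>
      decide (v.1 = vert e UU.1) && (decide (v'.1 = vert e UU.2) &&
        chk UU.1 UU.2 (fun b => (e b).2.2) v.2 v'.2)).any fun x => x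

theorem adjB_iff {G : PG ℕ ℕ (Fin r) (Fin r)} {v v' : Vx l r} :
    adjB G v v' = true ↔ Adj G v v' := by
  unfold adjB Adj
  simp only [List.any_eq_true, List.mem_map, mem_tuples, Finset.mem_toList, Finset.mem_univ,
    true_and]
  constructor
  · rintro ⟨e, he, x, ⟨UU, rfl⟩, h⟩
    simp only [Bool.and_eq_true, decide_eq_true_eq, chk_iff] at h
    exact ⟨e, he, UU.1, UU.2, h.1, h.2.1, h.2.2⟩
  · rintro ⟨e, he, U, U', h1, h2, h3⟩
    refine ⟨e, he, true, ⟨(U, U'), ?_⟩, rfl⟩
    simp only [Bool.and_eq_true, decide_eq_true_eq, chk_iff]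
    exact ⟨h1, h2, h3⟩

theorem Adj.symm {G : PG ℕ ℕ (Fin r) (Fin r)} {v v' : Vx l r} (h : Adj G v v') :
    Adj G v' v := by
  obtain ⟨e, he, U, U', h1, h2, h3⟩ := h
  exact ⟨e, he, U', U, h2, h1, fun n => (h3 n).symm⟩

section PT

variable {A : Set Word} {γ : Type*} [Enc γ]

theorem PT_vert {e : γ → Fin l → Ed r} (he : PT A e) (U : Finset (Fin l)) :
    PT A (fun a => vert (e a) U) := by
  refine PT.funMk fun b => ?_
  have hb : PT A (fun a => e a b) := PT.funAt he b
  unfold vert
  by_cases h : b ∈ U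
  · simp only [h, if_true]
    exact (PT.const true).pair hb.fst
  · simp only [h, if_false]
    exact (PT.const false).pair hb.snd.fst

theorem PT_vlist (l : ℕ) {G : γ → PG ℕ ℕ (Fin r) (Fin r)} (hG : PT A G) :
    PT A (fun a => vlist l (G a)) := by
  unfold vlist
  refine PT.flatMap (f := fun (_ : γ) (e : Fin l → Ed r) =>
    (Finset.univ.toList : List (Finset (Fin l))).flatMap fun U =>
    (Finset.univ.toList : List ((Fin l → Fin r) → Fin 3)).map fun φ =>
      ((vert e U, φ) : Vx l r)) (PT_tuples hG l) ?_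
  refine PT.flatMapConst _ fun U _ => ?_
  refine PT.mapConst _ fun φ _ => ?_
  exact (PT_vert PT.snd' U).pair (PT.const φ)

theorem PT_adjB {G : γ → PG ℕ ℕ (Fin r) (Fin r)} {v v' : γ → Vx l r} (hG : PT A G)
    (hv : PT A v) (hv' : PT A v') : PT A (fun a => adjB (G a) (v a) (v' a)) := by
  unfold adjB
  refine PT.any (l := fun a => tuples (G a) l) (f := fun (a : γ) (e : Fin l → Ed r) =>
    ((Finset.univ.toList : List (Finset (Fin l) × Finset (Fin l))).map fun UU =>
      decide ((v a).1 = vert e UU.1) && (decide ((v' a).1 = vert e UU.2) &&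
        chk UU.1 UU.2 (fun b => (e b).2.2) (v a).2 (v' a).2)).any fun x => x)
    (PT_tuples hG l) ?_
  refine PT.any (f := fun _ x => x) (PT.mapConst _ fun UU _ => ?_) PT.snd'
  have he : PT A (fun p : γ × (Fin l → Ed r) => p.2) := PT.snd'
  have hp : PT A (fun p : γ × (Fin l → Ed r) => fun b => (p.2 b).2.2) :=
    PT.funMk fun b => (PT.funAt he b).snd.snd
  have h1 : PT A (fun p : γ × (Fin l → Ed r) => v p.1) := hv.comp PT.fst'
  have h2 : PT A (fun p : γ × (Fin l → Ed r) => v' p.1) := hv'.comp PT.fst'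
  refine (PT.eq h1.fst (PT_vert he UU.1)).and ((PT.eq h2.fst (PT_vert he UU.2)).and ?_)
  exact PT.finComp (fun q : (Fin l → Fin r → Fin r) × ((Fin l → Fin r) → Fin 3) ×
    ((Fin l → Fin r) → Fin 3) => chk UU.1 UU.2 q.1 q.2.1 q.2.2) (hp.pair (h1.snd.pair h2.snd))

end PT

/-! ### The adjacency matrix -/

/-- the rows of the adjacency matrix of the graph on the positions of a list -/
def matL {V : Type} (L : List V) (f : V → V → Bool) : List Bool :=
  L.flatMap fun v => L.map fun w => f v w

theorem PT_matL {A : Set Word} {γ : Type*} [Enc γ] {V : Type} [Enc V] {L : γ → List V}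
    {f : γ → V → V → Bool} (hL : PT A L) (hf : PT A (fun p : γ × V × V => f p.1 p.2.1 p.2.2)) :
    PT A (fun a => matL (L a) (f a)) := by
  unfold matL
  refine PT.flatMap (f := fun (a : γ) (v : V) => (L a).map fun w => f a v w) hL ?_
  refine PT.map (l := fun p : γ × V => L p.1) (f := fun (p : γ × V) (w : V) => f p.1 p.2 w)
    (hL.comp PT.fst') ?_
  exact hf.comp ((PT.fst'.fst).pair ((PT.fst'.snd).pair PT.snd'))

end Vale.Agent.P342.Red
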