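import Mathlib

/-!
Definitions for the statement about problem P342: polynomial time, the classes P and NP of languages
of binary words, the binary word of a graph.
-/

namespace Vale.Agent.P342

/-- `f` is computed in polynomial time by a Turing machine of Mathlib (finitely many stacks), where
inputs and outputs are given by the binary codes `ca` and `cb`. -/
def PolyTime {α β : Type} (ca : α → List Bool) (cb : β → List Bool) (f : α → β) : Prop :=
  Nonempty (Turing.TM2ComputableInPolyTime ca cb f)

/-- The code of the pair of the words `u` and `v`: every bit of `u` is preceded by `true`, then comes
`false`, then `v`. -/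
def pairW (u v : List Bool) : List Bool := (u.flatMap fun b => [true, b]) ++ false :: v

/-- The class P: languages of binary words decided in polynomial time. -/
def classP : Set (Set (List Bool)) :=
  {L | ∃ dec : List Bool → Bool, PolyTime (fun w : List Bool => w) (fun b : Bool => [b]) dec ∧
    ∀ x, x ∈ L ↔ dec x = true}

/-- The class NP: languages of binary words with witnesses of polynomial length which are verified
in polynomial time. -/
def classNP : Set (Set (List Bool)) :=
  {L | ∃ (V : List Bool × List Bool → Bool) (p : Polynomial ℕ),
    PolyTime (fun z : List Bool × List Bool => pairW z.1 z.2) (fun b : Bool => [b]) V ∧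
    ∀ x, x ∈ L ↔ ∃ y : List Bool, y.length ≤ p.eval x.length ∧ V (x, y) = true}

open Classical in
/-- The adjacency matrix of a graph on `{0, …, n - 1}`, row by row, as a binary word of length
`n ^ 2`. -/
noncomputable def graphWord {n : ℕ} (G : SimpleGraph (Fin n)) : List Bool :=
  (List.finRange n).flatMap fun i => (List.finRange n).map fun j => decide (G.Adj i j)

end Vale.Agent.P342
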