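import Mathlib
import Vale.Agent.P342.H472.Src
import Vale.Agent.P342.H472.Gam
import Vale.Agent.P342.H472.Model

/-!
P342: NP-hardness of telling 3-colourable graphs from graphs that are not `c`-colourable, from the
soundness and the completeness of the graph of a product of games.
-/

namespace Vale.Agent.P342.Red

open Vale.Agent.Lib.PCP Vale.Agent.Lib.PolyTime Vale.Agent.P342

variable {l r : ℕ}

theorem not_adj_self [NeZero r] (G : PG ℕ ℕ (Fin r) (Fin r)) (v : Vx l r) : ¬ Adj G v v := by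
  rintro ⟨e, -, U, U', h1, h2, h3⟩
  have hU : U = U' := by
    ext b
    have h4 := congrFun (h1.symm.trans h2) b
    unfold vert at h4
    by_cases h : b ∈ U <;> by_cases h' : b ∈ U' <;> simp_all
  subst hU
  exact h3 (fun _ => 0) rfl

/-- the graph on the positions of the list of vertices -/
def posGraph [NeZero r] (l : ℕ) (G : PG ℕ ℕ (Fin r) (Fin r)) :
    SimpleGraph (Fin (vlist l G).length) where
  Adj i j := Adj G ((vlist l G).get i) ((vlist l G).get j)
  symm := ⟨fun _ _ h => Adj.symm h⟩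
  loopless := ⟨fun _ h => not_adj_self G _ h⟩

theorem graphWord_posGraph [NeZero r] (l : ℕ) (G : PG ℕ ℕ (Fin r) (Fin r)) :
    graphWord (posGraph l G) = matL (vlist l G) (adjB G) := by
  classical
  unfold graphWord matL
  have h : (List.finRange (vlist l G).length).map (vlist l G).get = vlist l G :=
    List.map_get_finRange _
  conv_rhs => rw [← h]
  rw [List.flatMap_map]
  congr 1
  funext i
  rw [List.map_map]
  refine List.map_congr_left fun j _ => ?_
  rw [Bool.eq_iff_iff, decide_eq_true_eq, Function.comp_apply, adjB_iff]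
  rfl

theorem colorable_of_col [NeZero r] {c : ℕ} {G : PG ℕ ℕ (Fin r) (Fin r)}
    (h : ∃ col : Vx l r → Fin c, ∀ v v', Adj G v v' → col v ≠ col v') :
    (posGraph l G).Colorable c := by
  obtain ⟨col, hcol⟩ := h
  exact ⟨SimpleGraph.Coloring.mk (fun i => col ((vlist l G).get i)) fun {_ _} h => hcol _ _ h⟩

theorem col_of_colorable [NeZero r] {c : ℕ} (hc : 0 < c) {G : PG ℕ ℕ (Fin r) (Fin r)}
    (h : (posGraph l G).Colorable c) :
    ∃ col : Vx l r → Fin c, ∀ v v', Adj G v v' → col v ≠ col v' := by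
  classical
  obtain ⟨C⟩ := h
  have key : ∀ v ∈ vlist l G, ∃ i : Fin (vlist l G).length, (vlist l G).get i = v :=
    fun v hv => List.mem_iff_get.1 hv
  refine ⟨fun v => if hv : v ∈ vlist l G then C (key v hv).choose else ⟨0, hc⟩, ?_⟩
  intro v v' hvv
  obtain ⟨e, he, U, U', h1, h2, h3⟩ := id hvv
  have hv : v ∈ vlist l G := mem_vlist.2 ⟨e, he, U, h1⟩
  have hv' : v' ∈ vlist l G := mem_vlist.2 ⟨e, he, U', h2⟩
  simp only [dif_pos hv, dif_pos hv']
  apply C.valid
  show Adj G ((vlist l G).get (key v hv).choose) ((vlist l G).get (key v' hv').choose)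
  rw [(key v hv).choose_spec, (key v' hv').choose_spec]
  exact hvv

/-- The reduction, from soundness and completeness. -/
theorem np_hard
    (soundness : ∀ c : ℕ, ∃ (l : ℕ) (η : ℝ), 0 < η ∧ ∀ (r : ℕ) [NeZero r]
      (G : PG ℕ ℕ (Fin r) (Fin r)), G ≠ [] → G.Sound η →
        ¬ ∃ col : Vx l r → Fin c, ∀ v v', Adj G v v' → col v ≠ col v')
    (completeness : ∀ (r l : ℕ) (G : PG ℕ ℕ (Fin r) (Fin r)), G.Perfect →
      ∃ col : Vx l r → Fin 3, ∀ v v', Adj G v v' → col v ≠ col v')
    (c : ℕ) {L : Set (List Bool)} (hL : L ∈ classNP) :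
    ∃ f : List Bool → List Bool, PolyTime (fun w : List Bool => w) (fun w : List Bool => w) f ∧
      ∀ x, ∃ (n : ℕ) (G : SimpleGraph (Fin n)), f x = graphWord G ∧
        (x ∈ L → G.Colorable 3) ∧ (x ∉ L → ¬ G.Colorable c) := by
  obtain ⟨l, η, hη, hs⟩ := soundness (c + 1)
  obtain ⟨r, hr, Φ, g, hg, hgΦ, hΦ⟩ := np_lc hL hη
  have hPT : PT ∅ (fun G : PG ℕ ℕ (Fin r) (Fin r) => Raw.mk (matL (vlist l G) (adjB G))) := by
    refine PT.rawOfList (PT_matL (f := fun (G : PG ℕ ℕ (Fin r) (Fin r)) (v v' : Vx l r) =>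
      adjB G v v') (PT_vlist l PT.id) ?_)
    exact PT_adjB PT.fst' PT.snd'.fst PT.snd'.snd
  obtain ⟨W, hW, hW'⟩ := hPT
  refine ⟨fun x => W (g x), ?_, fun x => ?_⟩
  · exact OfTM2.fp_iff_tm2.1 (hW.comp hg)
  · refine ⟨_, posGraph l (Φ x), ?_, fun hx => ?_, fun hx hc => ?_⟩
    · show W (g x) = _
      rw [graphWord_posGraph, hgΦ, hW']
      rfl
    · exact colorable_of_col (completeness r l (Φ x) ((hΦ x).2.1 hx))
    · exact hs r (Φ x) (hΦ x).1 ((hΦ x).2.2 hx)
        (col_of_colorable (Nat.succ_pos c) (hc.mono (Nat.le_succ c)))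

end Vale.Agent.P342.Red
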