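import Mathlib
import Vale.Agent.P342.H472.Final

/-!
P342: a polynomial time algorithm that tells 3-colourable graphs from graphs that are not
`c`-colourable would imply that P equals NP.
-/

namespace Vale.Agent.P342.Red

open Vale.Agent.Lib.PCP Vale.Agent.Lib.PolyTime Vale.Agent.P342

/-- P is contained in NP. -/
theorem classP_subset : classP ⊆ classNP := by
  intro L hL
  obtain ⟨dec, ⟨Md⟩, hdec⟩ := hL
  obtain ⟨W, hW, hW'⟩ := exists_FP_of_tm2 (A := ∅) Md
  refine ⟨fun z => dec z.1, 0, ?_, ?_⟩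
  · refine tm2_of_polyTimeFun _ _ _ (fun x => W (fstW x))
      (polyTimeFun_iff.2 (hW.comp FP.fst)) fun z => ?_
    rw [show pairW z.1 z.2 = pr z.1 z.2 from pairW_eq z.1 z.2, fstW_pr]
    exact hW' z.1
  · intro x
    rw [hdec x]
    refine ⟨fun h => ⟨[], by simp, h⟩, ?_⟩
    rintro ⟨y, _, h⟩
    exact h

/-- Hardness implies that there is no algorithm unless P equals NP. -/
theorem np_eq_p {c : ℕ}
    (hard : ∀ L ∈ classNP, ∃ f : List Bool → List Bool,
      PolyTime (fun w : List Bool => w) (fun w : List Bool => w) f ∧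
      ∀ x, ∃ (n : ℕ) (G : SimpleGraph (Fin n)), f x = graphWord G ∧
        (x ∈ L → G.Colorable 3) ∧ (x ∉ L → ¬ G.Colorable c))
    (h : ∃ dec : List Bool → Bool,
      PolyTime (fun w : List Bool => w) (fun b : Bool => [b]) dec ∧
      ∀ (n : ℕ) (G : SimpleGraph (Fin n)), (G.Colorable 3 → dec (graphWord G) = true) ∧
        (¬ G.Colorable c → dec (graphWord G) = false)) :
    classNP = classP := by
  refine Set.Subset.antisymm ?_ classP_subset
  intro L hL
  obtain ⟨f, ⟨Mf⟩, hf⟩ := hard L hL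
  obtain ⟨dec, ⟨Md⟩, hdec⟩ := h
  obtain ⟨W, hW, hW'⟩ := exists_FP_of_tm2 (A := ∅) Md
  obtain ⟨g, hg, hg'⟩ := exists_FP_of_tm2 (A := ∅) Mf
  refine ⟨fun x => dec (f x), ?_, ?_⟩
  · refine tm2_of_polyTimeFun _ _ _ (fun x => W (g x)) (polyTimeFun_iff.2 (hW.comp hg)) fun x => ?_
    rw [hg', hW']
  · intro x
    obtain ⟨n, G, h1, h2, h3⟩ := hf x
    dsimp only
    rw [h1]
    refine ⟨fun hx => (hdec n G).1 (h2 hx), fun hx => ?_⟩
    by_contra hx'
    have h7 := (hdec n G).2 (h3 hx')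
    rw [hx] at h7
    exact absurd h7 (by simp)

end Vale.Agent.P342.Red
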